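import Vale.Agent.P269.G1I.All
import Vale.Agent.P269.G2I.BSpec1
import Vale.Agent.P269.G2I.Model1
import Vale.Agent.P269.G2I.Model2
import Vale.Agent.P269.G2I.Model3
import Vale.Agent.P269.G2I.T.H980_ChiPsi
import Vale.Agent.P269.G2I.XSpec1

/-!
# [Yf] the characteristic polynomial annihilates the Euler field; [Yh] from [Yg]
-/

namespace Vale.Agent.P269.G2.H6

open Finset.HasAntidiagonal (antidiagonal)
open Polynomial (aeval)
open Vale.Agent.P269.CI

section qa

variable {β : Type*} [Fintype β] [DecidableEq β] {o : β} {R : Type*} [CommRing R]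
  (S : Consts β o R)

/-- the column of the unit -/
theorem mat_o (x : QA S) (k : β) : QA.mat S x k o = x k := by
  rw [QA.mat_apply, Finset.sum_eq_single k]
  · rw [S.comm, S.unit, if_pos rfl, mul_one]
  · intro j _ hj
    rw [S.comm, S.unit, if_neg hj, mul_zero]
  · intro h
    exact absurd (Finset.mem_univ k) h

theorem mul_eq_mat (x y : QA S) (k : β) : (x * y : QA S) k = ∑ l, QA.mat S x k l * y l := by
  rw [QA.mul_def, Finset.sum_comm]
  refine Finset.sum_congr rfl fun l _ => ?_
  rw [QA.mat_apply, Finset.sum_mul]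
  exact Finset.sum_congr rfl fun i _ => by ring

/-- a polynomial which annihilates the matrix annihilates the element -/
theorem aeval_charpoly (x : QA S) : aeval x (QA.mat S x).charpoly = 0 := by
  have h1 : QA.mat S (aeval x (QA.mat S x).charpoly) = 0 := by
    rw [← Polynomial.aeval_algHom_apply]
    exact Matrix.aeval_self_charpoly _
  funext k
  have h2 := mat_o S (aeval x (QA.mat S x).charpoly) k
  rw [h1] at h2
  exact h2.symm

theorem sum_apply {σ : Type*} (s : Finset σ) (f : σ → QA S) (k : β) :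
    (∑ i ∈ s, f i : QA S) k = ∑ i ∈ s, f i k :=
  Finset.sum_apply (M := fun _ : β => R) k s f

end qa

variable {X : CompleteIntersection} {F : ℕ → ℕ → List (Ins X) → ℂ}

/-- **[Yf]** -/
theorem aeval_chi (hF : IsGW X F) (he : Even X.dim) : aeval (EM hF he) (chi hF he) = 0 :=
  aeval_charpoly (consts hF he) (EM hF he)

theorem cb_mu (b : Ix X) : cb (nx X) (mu X b) =
    ((hp X b : ℕ) : RM X) - algebraMap ℚ (RM X) ((X.dim : ℚ) / 2) := by
  have h1 : cb (nx X) (mu X b) = ((MvPowerSeries.C (σ := Fin (nx X)) (R := PowerSeries ℂ)).comp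
      (PowerSeries.C (R := ℂ))) (mu X b) := rfl
  have h2 : mu X b = ((hp X b : ℕ) : ℂ) - algebraMap ℚ ℂ ((X.dim : ℚ) / 2) := by
    unfold mu
    simp
  rw [h1, h2, map_sub, map_natCast, RingHom.map_rat_algebraMap]

/-- the unit column of `psi_n` is `phi_n` -/
theorem psi_col (hF : IsGW X F) (he : Even X.dim) (n : ℕ) (k : Ix X) :
    ((frob hF he).psi n : OB X (nx X)) k (one X) = ((frob hF he).phi n : AM hF he) k := by
  rw [G1.Frob.psi, G1.Frob.phi, Matrix.sum_apply, sum_apply]
  refine Finset.sum_congr rfl fun e _ => ?_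
  split_ifs with h
  · rfl
  · change (QA.mat (consts hF he) (EM hF he ^ (e.1 - 1)) * muB X (nx X) *
      QA.mat (consts hF he) (EM hF he ^ e.2)) k (one X) =
      (EM hF he ^ (e.1 - 1) * (dd hF he (EM hF he ^ e.2) -
        algebraMap ℚ (RM X) ((X.dim : ℚ) / 2) • EM hF he ^ e.2) : AM hF he) k
    rw [mul_eq_mat, Matrix.mul_apply]
    refine Finset.sum_congr rfl fun l _ => ?_
    rw [mat_o, muB, Matrix.mul_diagonal, cb_mu]
    change _ = _ * (((hp X l : ℕ) : RM X) * (EM hF he ^ e.2 : AM hF he) l -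
      algebraMap ℚ (RM X) ((X.dim : ℚ) / 2) * (EM hF he ^ e.2 : AM hF he) l)
    ring

/-- **[Yh]** from `chi_psi`: apply to the unit -/
theorem chi_phi (hF : IsGW X F) (he : Even X.dim) :
    (chi hF he).sum (fun n c => c • (frob hF he).phi n) = 0 := by
  have h := chi_psi hF he
  rw [Polynomial.sum_def] at h ⊢
  funext k
  have h2 := congrFun (congrFun h k) (one X)
  rw [Matrix.sum_apply] at h2
  rw [sum_apply]
  refine Eq.trans (Finset.sum_congr rfl fun n _ => ?_) h2
  rw [QA.smul_apply, ← psi_col]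
  rfl

end Vale.Agent.P269.G2.H6
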